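import Mathlib
import Vale.Agent.Lib.P248.helper1.ConeDefs

/-!
# P248 (helper79, second copy of pool job 435): a symmetric integral bound

For a symmetric measurable set `T` on which `|⟪z, y⟫| < 1`, the volume of `T` is at most the
integral over `T` of `(1 - ⟪z, y⟫)^(-(m+1))`.
-/

namespace Vale.Agent.Lib.P248.H79Y

open MeasureTheory Set
open scoped ENNReal
open Vale.Agent.Lib.P248.H1

theorem two_le_inv_pow_add (t : ℝ) (ht : |t| < 1) (k : ℕ) :
    2 ≤ (1 - t)⁻¹ ^ k + (1 + t)⁻¹ ^ k := by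
  have h1 : -1 < t := (abs_lt.1 ht).1
  have h2 : t < 1 := (abs_lt.1 ht).2
  have ha : 0 < 1 - t := by linarith
  have hb : 0 < 1 + t := by linarith
  have e1 : 1 + t ≤ (1 - t)⁻¹ := by
    rw [le_inv_comm₀ hb ha]
    rw [inv_eq_one_div, le_div_iff₀ hb]
    nlinarith [sq_nonneg t]
  have e2 : 1 - t ≤ (1 + t)⁻¹ := by
    rw [le_inv_comm₀ ha hb]
    rw [inv_eq_one_div, le_div_iff₀ ha]
    nlinarith [sq_nonneg t]
  have b1 : 1 + (k : ℝ) * t ≤ (1 + t) ^ k := one_add_mul_le_pow (by linarith) k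
  have b2 : 1 + (k : ℝ) * (-t) ≤ (1 + -t) ^ k := one_add_mul_le_pow (by linarith) k
  have c1 : (1 + t) ^ k ≤ (1 - t)⁻¹ ^ k := pow_le_pow_left₀ hb.le e1 k
  have c2 : (1 + -t) ^ k ≤ (1 + t)⁻¹ ^ k := by
    have : 1 + -t = 1 - t := by ring
    rw [this]
    exact pow_le_pow_left₀ ha.le e2 k
  linarith

theorem volume_le_lintegral_symm {m : ℕ} (z : EuclideanSpace ℝ (Fin m))
    (T : Set (EuclideanSpace ℝ (Fin m))) (hT : MeasurableSet T) (hTs : ∀ y ∈ T, -y ∈ T)
    (habs : ∀ y ∈ T, |inner ℝ z y| < 1) :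
    volume T ≤ ∫⁻ y in T, ENNReal.ofReal ((1 - inner ℝ z y)⁻¹ ^ (m + 1)) := by
  set g : EuclideanSpace ℝ (Fin m) → ℝ≥0∞ :=
    fun y => ENNReal.ofReal ((1 - inner ℝ z y)⁻¹ ^ (m + 1)) with hg
  have hgm : Measurable g := by
    have hc : Measurable fun y : EuclideanSpace ℝ (Fin m) => inner ℝ z y :=
      (continuous_const.inner continuous_id).measurable
    exact ENNReal.measurable_ofReal.comp (((measurable_const.sub hc).inv).pow_const _)
  have hneg : MeasurePreserving (fun y : EuclideanSpace ℝ (Fin m) => -y) volume volume :=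
    (LinearIsometryEquiv.neg ℝ (E := EuclideanSpace ℝ (Fin m))).measurePreserving
  have hpre : (fun y : EuclideanSpace ℝ (Fin m) => -y) ⁻¹' T = T := by
    ext y
    constructor
    · intro hy
      have := hTs (-y) hy
      rwa [neg_neg] at this
    · intro hy
      exact hTs y hy
  have hswap : ∫⁻ y in T, g (-y) = ∫⁻ y in T, g y := by
    have h := hneg.setLIntegral_comp_preimage hT hgm
    rw [hpre] at h
    exact h
  have hpt : ∀ y ∈ T, (2 : ℝ≥0∞) ≤ g y + g (-y) := by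
    intro y hy
    have ht := habs y hy
    have h1 : -1 < inner ℝ z y := (abs_lt.1 ht).1
    have h2 : inner ℝ z y < 1 := (abs_lt.1 ht).2
    have hkey := two_le_inv_pow_add (inner ℝ z y) ht (m + 1)
    have hn1 : 0 ≤ (1 - inner ℝ z y)⁻¹ ^ (m + 1) :=
      pow_nonneg (inv_nonneg.2 (by linarith)) _
    have hn2 : 0 ≤ (1 + inner ℝ z y)⁻¹ ^ (m + 1) :=
      pow_nonneg (inv_nonneg.2 (by linarith)) _
    show (2 : ℝ≥0∞) ≤ ENNReal.ofReal ((1 - inner ℝ z y)⁻¹ ^ (m + 1))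
      + ENNReal.ofReal ((1 - inner ℝ z (-y))⁻¹ ^ (m + 1))
    rw [inner_neg_right, sub_neg_eq_add, ← ENNReal.ofReal_add hn1 hn2]
    calc (2 : ℝ≥0∞) = ENNReal.ofReal 2 := by simp
      _ ≤ _ := ENNReal.ofReal_le_ofReal hkey
  have h2 : 2 * volume T ≤ 2 * ∫⁻ y in T, g y := by
    calc 2 * volume T = ∫⁻ _ in T, (2 : ℝ≥0∞) := by
          rw [setLIntegral_const]
      _ ≤ ∫⁻ y in T, (g y + g (-y)) := setLIntegral_mono' hT hpt
      _ = (∫⁻ y in T, g y) + ∫⁻ y in T, g (-y) := lintegral_add_left hgm _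
      _ = 2 * ∫⁻ y in T, g y := by rw [hswap, two_mul]
  exact (ENNReal.mul_le_mul_iff_right (by norm_num) (by norm_num)).1 h2

end Vale.Agent.Lib.P248.H79Y
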