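import Mathlib
import Vale.Agent.Lib.P248.helper1.ConeAux

/-!
# P248 (helper79, second copy of pool job 429): interior points of the cone

For `ζ` in the interior of `D` and `0 < τ < 1` the point `(τ h, (1 - τ) ζ + τ c)` is an
interior point of the cone over `D` with apex `(h, c)`.
-/

namespace Vale.Agent.Lib.P248.H79

open MeasureTheory Set
open scoped ENNReal
open Vale.Agent.Lib.P227 Vale.Agent.Lib.P248.H1

theorem mem_interior_coneE {n : ℕ} (D : Set (EuclideanSpace ℝ (Fin n)))
    (c ζ : EuclideanSpace ℝ (Fin n)) (hζ : ζ ∈ interior D) (h τ : ℝ) (hh : 0 < h)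
    (hτ0 : 0 < τ) (hτ1 : τ < 1) :
    ecomb (τ * h) ((1 - τ) • ζ + τ • c) ∈ interior (coneE D c h) := by
  set z : EuclideanSpace ℝ (Fin (n + 1)) := ecomb (τ * h) ((1 - τ) • ζ + τ • c) with hz
  have h0 : Continuous fun y : EuclideanSpace ℝ (Fin (n + 1)) => y 0 :=
    (continuous_apply 0).comp (PiLp.continuous_ofLp 2 _)
  set g : EuclideanSpace ℝ (Fin (n + 1)) → EuclideanSpace ℝ (Fin n) :=
    fun x => (1 - x 0 / h)⁻¹ • (etail x - (x 0 / h) • c) with hg
  have hz0 : z 0 = τ * h := ecomb_zero _ _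
  have hzr : z 0 / h = τ := by
    rw [hz0]
    field_simp
  have hτ1' : (1 - τ) ≠ 0 := by linarith
  have hgz : g z = ζ := by
    show (1 - z 0 / h)⁻¹ • (etail z - (z 0 / h) • c) = ζ
    rw [hzr, hz, etail_ecomb, add_sub_cancel_right, smul_smul, inv_mul_cancel₀ hτ1', one_smul]
  have hgc : ContinuousAt g z := by
    have h1 : ContinuousAt (fun x : EuclideanSpace ℝ (Fin (n + 1)) => (1 - x 0 / h)⁻¹) z := by
      refine ContinuousAt.inv₀ ?_ ?_
      · exact (continuous_const.sub (h0.div_const h)).continuousAt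
      · rw [hzr]
        exact hτ1'
    have h2 : Continuous fun x : EuclideanSpace ℝ (Fin (n + 1)) =>
        etail x - (x 0 / h) • c :=
      continuous_etail.sub ((h0.div_const h).smul continuous_const)
    exact h1.smul h2.continuousAt
  have hU1 : {x : EuclideanSpace ℝ (Fin (n + 1)) | 0 < x 0} ∈ nhds z := by
    refine (isOpen_lt continuous_const h0).mem_nhds ?_
    show 0 < z 0
    rw [hz0]
    positivity
  have hU2 : {x : EuclideanSpace ℝ (Fin (n + 1)) | x 0 < h} ∈ nhds z := by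
    refine (isOpen_lt h0 continuous_const).mem_nhds ?_
    show z 0 < h
    rw [hz0]
    nlinarith
  have hU3 : g ⁻¹' interior D ∈ nhds z := by
    refine hgc.preimage_mem_nhds (isOpen_interior.mem_nhds ?_)
    rw [hgz]
    exact hζ
  rw [mem_interior_iff_mem_nhds]
  refine Filter.mem_of_superset (Filter.inter_mem (Filter.inter_mem hU1 hU2) hU3) ?_
  rintro x ⟨⟨hx0, hx1⟩, hx2⟩
  have hx0' : 0 < x 0 := hx0
  have hx1' : x 0 < h := hx1
  have hr0 : 0 < x 0 / h := div_pos hx0' hh
  have hr1 : x 0 / h < 1 := (div_lt_one hh).2 hx1'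
  have hne : (1 - x 0 / h) ≠ 0 := by linarith
  refine ⟨g x, interior_subset hx2, x 0 / h, hr0.le, hr1.le, ?_⟩
  have e1 : x 0 / h * h = x 0 := by field_simp
  have e2 : (1 - x 0 / h) • g x + (x 0 / h) • c = etail x := by
    show (1 - x 0 / h) • ((1 - x 0 / h)⁻¹ • (etail x - (x 0 / h) • c)) + (x 0 / h) • c = etail x
    rw [smul_smul, mul_inv_cancel₀ hne, one_smul, sub_add_cancel]
  rw [e1, e2, ecomb_eta]

end Vale.Agent.Lib.P248.H79
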