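import Mathlib
import Vale.Agent.Lib.P248.helper1.ConeAux

/-!
# P248 (helper79, second copy of pool job 420): volume of the slab model

The slab model `polarModel D ζ τ` is closed, hence measurable, and its volume is at least
`|polarAt D ζ| / ((n + 1) τ (1 - τ)^(n + 1))`.
-/

namespace Vale.Agent.Lib.P248.H79

open MeasureTheory Set
open scoped ENNReal Pointwise
open Vale.Agent.Lib.P227 Vale.Agent.Lib.P248.H1

theorem measurableSet_polarModel {n : ℕ} (D : Set (EuclideanSpace ℝ (Fin n)))
    (ζ : EuclideanSpace ℝ (Fin n)) (τ : ℝ) : MeasurableSet (polarModel D ζ τ) := by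
  have h0 : Continuous fun y : EuclideanSpace ℝ (Fin (n + 1)) => y 0 :=
    (continuous_apply 0).comp (PiLp.continuous_ofLp 2 _)
  have e : polarModel D ζ τ = {y | -1 / τ ≤ y 0} ∩ ({y | y 0 ≤ 1 / (1 - τ)} ∩
      ⋂ d ∈ D, {y | inner ℝ (d - ζ) (etail y) ≤ 1 + τ * y 0}) := by
    ext y
    simp only [polarModel, mem_ofPred_eq, mem_inter_iff, mem_iInter]
  rw [e]
  refine ((isClosed_le continuous_const h0).inter ((isClosed_le h0 continuous_const).inter
    (isClosed_biInter fun d _ => isClosed_le ?_ ?_))).measurableSet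
  · exact continuous_const.inner continuous_etail
  · exact continuous_const.add (continuous_const.mul h0)

theorem vol_polarModel_ge {n : ℕ} (D : Set (EuclideanSpace ℝ (Fin n)))
    (ζ : EuclideanSpace ℝ (Fin n)) (τ : ℝ) (hτ0 : 0 < τ) (hτ1 : τ < 1) :
    ENNReal.ofReal (1 / ((n + 1) * τ * (1 - τ) ^ (n + 1))) * volume (polarAt D ζ)
      ≤ volume (polarModel D ζ τ) := by
  have hτ1' : 0 < 1 - τ := by linarith
  have ha : τ * (-1 / τ) = -1 := by field_simp
  have hab : -1 / τ ≤ 1 / (1 - τ) := by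
    have h1 : -1 / τ < 0 := div_neg_of_neg_of_pos (by norm_num) hτ0
    have h2 : 0 < 1 / (1 - τ) := by positivity
    linarith
  have hpos : ∀ s ∈ Ioc (-1 / τ) (1 / (1 - τ)), 0 < 1 + τ * s := by
    intro s hs
    have h1 : τ * (-1 / τ) < τ * s := mul_lt_mul_of_pos_left hs.1 hτ0
    linarith
  have hsec : ∀ s ∈ Ioc (-1 / τ) (1 / (1 - τ)),
      ENNReal.ofReal ((1 + τ * s) ^ n) * volume (polarAt D ζ)
        ≤ volume (sec s (polarModel D ζ τ)) := by
    intro s hs
    have hp := hpos s hs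
    have hsub : (1 + τ * s) • polarAt D ζ ⊆ sec s (polarModel D ζ τ) := by
      rintro w ⟨η, hη, rfl⟩
      refine ⟨?_, ?_, fun d hd => ?_⟩
      · rw [ecomb_zero]
        exact hs.1.le
      · rw [ecomb_zero]
        exact hs.2
      · rw [etail_ecomb, ecomb_zero]
        show inner ℝ (d - ζ) ((1 + τ * s) • η) ≤ 1 + τ * s
        rw [inner_smul_right]
        have h1 : inner ℝ (d - ζ) η ≤ 1 := hη d hd
        nlinarith
    refine le_trans (le_of_eq ?_) (measure_mono hsub)
    rw [Measure.addHaar_smul, finrank_euclideanSpace_fin, abs_of_nonneg (pow_nonneg hp.le n)]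
  have hint : ∫ s in Ioc (-1 / τ) (1 / (1 - τ)), (1 + τ * s) ^ n
      = 1 / ((n + 1) * τ * (1 - τ) ^ (n + 1)) := by
    rw [← intervalIntegral.integral_of_le hab]
    rw [intervalIntegral.integral_comp_add_mul (fun x => x ^ n) hτ0.ne' 1, integral_pow]
    have e2 : 1 + τ * (1 / (1 - τ)) = 1 / (1 - τ) := by
      field_simp
      ring
    have e1 : 1 + τ * (-1 / τ) = 0 := by rw [ha]; norm_num
    rw [e1, e2, smul_eq_mul, zero_pow (Nat.succ_ne_zero n), sub_zero, one_div, inv_pow]
    have hn : (0 : ℝ) < (n : ℝ) + 1 := by positivity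
    field_simp
  calc ENNReal.ofReal (1 / ((n + 1) * τ * (1 - τ) ^ (n + 1))) * volume (polarAt D ζ)
      = (∫⁻ s in Ioc (-1 / τ) (1 / (1 - τ)), ENNReal.ofReal ((1 + τ * s) ^ n))
          * volume (polarAt D ζ) := by
        rw [← hint, ofReal_integral_eq_lintegral_ofReal]
        · exact (by fun_prop : Continuous fun s : ℝ => (1 + τ * s) ^ n).integrableOn_Ioc
        · exact ae_restrict_of_forall_mem measurableSet_Ioc
            (fun s hs => pow_nonneg (hpos s hs).le n)
    _ = ∫⁻ s in Ioc (-1 / τ) (1 / (1 - τ)),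
          ENNReal.ofReal ((1 + τ * s) ^ n) * volume (polarAt D ζ) := by
        rw [lintegral_mul_const]
        exact ENNReal.measurable_ofReal.comp (by fun_prop)
    _ ≤ ∫⁻ s in Ioc (-1 / τ) (1 / (1 - τ)), volume (sec s (polarModel D ζ τ)) :=
        setLIntegral_mono' measurableSet_Ioc hsec
    _ ≤ ∫⁻ s, volume (sec s (polarModel D ζ τ)) := setLIntegral_le_lintegral _ _
    _ = volume (polarModel D ζ τ) :=
        (volume_eq_lintegral_sec (measurableSet_polarModel D ζ τ)).symm

end Vale.Agent.Lib.P248.H79
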