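import Mathlib
import Vale.Agent.Lib.P248.helper37.Q2Defs

/-!
# P248 (helper79, copy of pool job 460, leaf J9): the lower bound for the `k`-negative part

`polK_lower_of` is the induction on the dimension, with the six leaf statements it uses
(`adm_sec`, `vT_dim_zero`, `volume_posZ_ne_top`, `polK_zero`, `polK_count`, `polK_piece`) passed
as hypotheses, so that it can be combined with any landed copy of these leaves.
-/

open MeasureTheory Set

namespace Vale.Agent.Lib.P248.H79Q

open Vale.Agent.Lib.P248.H37 Vale.Agent.Lib.P248.H37Q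

theorem tree_Om_nonneg : ∀ (m : ℕ) (A : Set (Fin m → ℝ)) (z : Fin m → ℝ), (∀ i, 0 ≤ z i) →
    ∀ k : ℕ, 0 ≤ (tree m A z).Om k := by
  intro m
  induction m with
  | zero =>
    intro A z hz k
    cases k with
    | zero => exact zero_le_one
    | succ k => exact le_refl _
  | succ n ih =>
    intro A z hz k
    cases k with
    | zero =>
      show 0 ≤ ((n + 1).factorial : ℝ) * vT A z * ∏ i, z i
      have h1 : 0 ≤ vT A z := ENNReal.toReal_nonneg
      have h2 : 0 ≤ ∏ i, z i := Finset.prod_nonneg (fun i _ => hz i)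
      positivity
    | succ k =>
      show 0 ≤ ∑ i, (tree n (sec A i) (fun j => z (i.succAbove j))).Om k
      exact Finset.sum_nonneg (fun i _ => ih _ _ (fun j => hz _) k)

theorem polK_lower_of
    (adm_sec : ∀ {n : ℕ} {A : Set (Fin (n + 1) → ℝ)} {z : Fin (n + 1) → ℝ}, Adm A z →
      ∀ i : Fin (n + 1), Adm (sec A i) (fun k => z (i.succAbove k)))
    (vT_dim_zero : ∀ (A : Set (Fin 0 → ℝ)) (z : Fin 0 → ℝ), vT A z = 1)
    (volume_posZ_ne_top : ∀ {m : ℕ} {A : Set (Fin m → ℝ)} {z : Fin m → ℝ}, Adm A z →
      volume (posZ A z) ≠ ⊤)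
    (polK_zero : ∀ {m : ℕ} (A : Set (Fin m → ℝ)) (z : Fin m → ℝ), polK A z 0 = posZ A z)
    (polK_count : ∀ {m : ℕ} (A : Set (Fin m → ℝ)) (z : Fin m → ℝ) (k : ℕ),
      (k : ENNReal) * volume (polK A z k) = ∑ i, volume (polK A z k ∩ {y | y i < 0}))
    (polK_piece : ∀ {n : ℕ} {A : Set (Fin (n + 1) → ℝ)} {z : Fin (n + 1) → ℝ}, Adm A z →
      ∀ (i : Fin (n + 1)) (k : ℕ),
      ENNReal.ofReal (1 / (((n : ℝ) + 1) * z i)) *
          volume (polK (sec A i) (fun j => z (i.succAbove j)) k) ≤
        volume (polK A z (k + 1) ∩ {y | y i < 0})) :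
    ∀ (m : ℕ) (A : Set (Fin m → ℝ)) (z : Fin m → ℝ), Adm A z → ∀ k : ℕ,
      ENNReal.ofReal ((tree m A z).Om k / ((k.factorial : ℝ) * (m.factorial : ℝ) * ∏ i, z i)) ≤
        volume (polK A z k) := by
  intro m
  induction m with
  | zero =>
    intro A z h k
    cases k with
    | zero =>
      rw [polK_zero]
      have h1 : volume (posZ A z) = ENNReal.ofReal (vT A z) :=
        (ENNReal.ofReal_toReal (volume_posZ_ne_top h)).symm
      rw [h1, vT_dim_zero]
      refine ENNReal.ofReal_le_ofReal ?_
      show (1 : ℝ) / (((Nat.factorial 0 : ℕ) : ℝ) * ((Nat.factorial 0 : ℕ) : ℝ) * ∏ i, z i) ≤ 1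
      simp
    | succ k =>
      have h0 : (tree 0 A z).Om (k + 1) = 0 := rfl
      rw [h0, zero_div, ENNReal.ofReal_zero]
      exact zero_le
  | succ n ih =>
    intro A z h k
    have hzpos : ∀ i, 0 < z i := h.pos
    have hprod : 0 < ∏ i, z i := Finset.prod_pos (fun i _ => hzpos i)
    cases k with
    | zero =>
      rw [polK_zero]
      have h1 : volume (posZ A z) = ENNReal.ofReal (vT A z) :=
        (ENNReal.ofReal_toReal (volume_posZ_ne_top h)).symm
      rw [h1]
      refine ENNReal.ofReal_le_ofReal (le_of_eq ?_)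
      show ((n + 1).factorial : ℝ) * vT A z * (∏ i, z i)
          / (((Nat.factorial 0 : ℕ) : ℝ) * ((n + 1).factorial : ℝ) * ∏ i, z i) = vT A z
      have hf : (0 : ℝ) < ((n + 1).factorial : ℝ) := by positivity
      rw [Nat.factorial_zero, Nat.cast_one, one_mul]
      field_simp
    | succ k =>
      have hOm : (tree (n + 1) A z).Om (k + 1)
          = ∑ i, (tree n (sec A i) (fun j => z (i.succAbove j))).Om k := rfl
      have hk1 : ((k + 1 : ℕ) : ENNReal) ≠ 0 := by
        rw [Nat.cast_ne_zero]
        exact Nat.succ_ne_zero k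
      have hk2 : ((k + 1 : ℕ) : ENNReal) ≠ ⊤ := ENNReal.natCast_ne_top _
      refine (ENNReal.mul_le_mul_iff_right hk1 hk2).1 ?_
      rw [polK_count]
      have hterm : ∀ i : Fin (n + 1),
          ENNReal.ofReal ((tree n (sec A i) (fun j => z (i.succAbove j))).Om k
            / ((k.factorial : ℝ) * ((n + 1).factorial : ℝ) * ∏ i, z i))
          ≤ volume (polK A z (k + 1) ∩ {y | y i < 0}) := by
        intro i
        have hi := ih (sec A i) (fun j => z (i.succAbove j)) (adm_sec h i) k
        have hp := polK_piece h i k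
        refine le_trans ?_ hp
        refine le_trans (le_of_eq ?_) (mul_le_mul' (le_refl (ENNReal.ofReal (1 / (((n : ℝ) + 1) * z i)))) hi)
        have hc : (0 : ℝ) ≤ 1 / (((n : ℝ) + 1) * z i) := by
          have := hzpos i
          positivity
        rw [← ENNReal.ofReal_mul hc]
        congr 1
        have hsplit : ∏ l, z l = z i * ∏ j, z (i.succAbove j) := Fin.prod_univ_succAbove z i
        have hq : 0 < ∏ j, z (i.succAbove j) := Finset.prod_pos (fun j _ => hzpos _)
        have hzi := hzpos i
        have hkf : (0 : ℝ) < (k.factorial : ℝ) := by positivity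
        have hnf : (0 : ℝ) < (n.factorial : ℝ) := by positivity
        rw [hsplit, Nat.factorial_succ, Nat.cast_mul, Nat.cast_succ]
        field_simp
      calc ((k + 1 : ℕ) : ENNReal) * ENNReal.ofReal ((tree (n + 1) A z).Om (k + 1)
            / (((k + 1).factorial : ℝ) * ((n + 1).factorial : ℝ) * ∏ i, z i))
          = ENNReal.ofReal (∑ i, (tree n (sec A i) (fun j => z (i.succAbove j))).Om k
              / ((k.factorial : ℝ) * ((n + 1).factorial : ℝ) * ∏ i, z i)) := by
            rw [hOm, ← ENNReal.ofReal_natCast (k + 1),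
              ← ENNReal.ofReal_mul (by positivity)]
            congr 1
            have hkf : (0 : ℝ) < (k.factorial : ℝ) := by positivity
            have hnf : (0 : ℝ) < ((n + 1).factorial : ℝ) := by positivity
            rw [← Finset.sum_div, Nat.factorial_succ, Nat.cast_mul, Nat.cast_succ]
            field_simp
        _ = ∑ i, ENNReal.ofReal ((tree n (sec A i) (fun j => z (i.succAbove j))).Om k
              / ((k.factorial : ℝ) * ((n + 1).factorial : ℝ) * ∏ i, z i)) := by
            refine ENNReal.ofReal_sum_of_nonneg (fun i _ => ?_)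
            have hOn := tree_Om_nonneg n (sec A i) (fun j => z (i.succAbove j))
              (fun j => (hzpos _).le) k
            positivity
        _ ≤ ∑ i, volume (polK A z (k + 1) ∩ {y | y i < 0}) :=
            Finset.sum_le_sum (fun i _ => hterm i)

end Vale.Agent.Lib.P248.H79Q
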