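import Mathlib
import Vale.Agent.Lib.P248.helper79.PolKLower
import Vale.Agent.Lib.P248.helper16.SecPos
import Vale.Agent.Lib.P248.helper77.PosBasic
import Vale.Agent.Lib.P248.helper40.PolKCount
import Vale.Agent.Lib.P248.helper52.PolKPiece

/-!
# P248 (helper79, pool job 460, leaf J9): the lower bound for the `k`-negative part

The exact statement of the leaf, from `polK_lower_of` and the landed copies of the leaves it
uses (`H16.adm_sec`, `H77.vT_dim_zero`, `H77.volume_posZ_ne_top`, `H40.polK_zero`,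
`H40.polK_count`, `H52.polK_piece`).
-/

open MeasureTheory Set

namespace Vale.Agent.Lib.P248.H79Q

open Vale.Agent.Lib.P248.H37 Vale.Agent.Lib.P248.H37Q

theorem polK_lower : ∀ (m : ℕ) (A : Set (Fin m → ℝ)) (z : Fin m → ℝ), Adm A z → ∀ k : ℕ,
    ENNReal.ofReal ((tree m A z).Om k / ((k.factorial : ℝ) * (m.factorial : ℝ) * ∏ i, z i)) ≤
      volume (polK A z k) :=
  polK_lower_of (fun h i => Vale.Agent.Lib.P248.H16.adm_sec h i)
    Vale.Agent.Lib.P248.H77.vT_dim_zero
    (fun h => Vale.Agent.Lib.P248.H77.volume_posZ_ne_top h)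
    (fun A z => Vale.Agent.Lib.P248.H40.polK_zero A z)
    (fun A z k => Vale.Agent.Lib.P248.H40.polK_count A z k)
    (fun h i k => Vale.Agent.Lib.P248.H52.polK_piece h i k)

end Vale.Agent.Lib.P248.H79Q
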