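import Mathlib
import Vale.Agent.Lib.P248.helper1.ConeDefs

/-!
# P248 (helper79, extra copy of pool job 434): change of variables for the projective map

The image of a measurable set `T` under `y ↦ (1 - ⟪z, y⟫)⁻¹ • y` (where `⟪z, y⟫ < 1` on `T`)
has volume `∫_T (1 - ⟪z, y⟫)^(-(m+1))`.
-/

namespace Vale.Agent.Lib.P248.H79Y

open MeasureTheory Set
open scoped ENNReal
open Vale.Agent.Lib.P248.H1

theorem volume_image_proj {m : ℕ} (z : EuclideanSpace ℝ (Fin m))
    (T : Set (EuclideanSpace ℝ (Fin m))) (hT : MeasurableSet T)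
    (hlt : ∀ y ∈ T, inner ℝ z y < 1) :
    volume ((fun y : EuclideanSpace ℝ (Fin m) => (1 - inner ℝ z y)⁻¹ • y) '' T)
      = ∫⁻ y in T, ENNReal.ofReal ((1 - inner ℝ z y)⁻¹ ^ (m + 1)) := by
  let f' : EuclideanSpace ℝ (Fin m) →
      EuclideanSpace ℝ (Fin m) →L[ℝ] EuclideanSpace ℝ (Fin m) := fun y =>
    (1 - inner ℝ z y)⁻¹ • ContinuousLinearMap.id ℝ (EuclideanSpace ℝ (Fin m))
      + ((-((1 - inner ℝ z y) ^ 2)⁻¹) • (-(innerSL ℝ z))).smulRight y
  have hder : ∀ y ∈ T, HasFDerivWithinAt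
      (fun y : EuclideanSpace ℝ (Fin m) => (1 - inner ℝ z y)⁻¹ • y) (f' y) T y := by
    intro y hy
    have hne : (1 - inner ℝ z y) ≠ 0 := by
      have := hlt y hy
      linarith
    have h1 : HasFDerivAt (fun y : EuclideanSpace ℝ (Fin m) => inner ℝ z y) (innerSL ℝ z) y :=
      (innerSL ℝ z).hasFDerivAt
    have h2 : HasFDerivAt (fun y : EuclideanSpace ℝ (Fin m) => 1 - inner ℝ z y)
        (-(innerSL ℝ z)) y := h1.const_sub 1
    have h3 : HasFDerivAt (fun y : EuclideanSpace ℝ (Fin m) => (1 - inner ℝ z y)⁻¹)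
        ((-((1 - inner ℝ z y) ^ 2)⁻¹) • (-(innerSL ℝ z))) y :=
      (hasDerivAt_inv hne).comp_hasFDerivAt y h2
    have h4 := h3.smul (hasFDerivAt_id y)
    exact h4.hasFDerivWithinAt
  have hinj : InjOn (fun y : EuclideanSpace ℝ (Fin m) => (1 - inner ℝ z y)⁻¹ • y) T := by
    intro y1 hy1 y2 hy2 h
    have hp1 : 0 < 1 - inner ℝ z y1 := by
      have := hlt y1 hy1
      linarith
    have hp2 : 0 < 1 - inner ℝ z y2 := by
      have := hlt y2 hy2
      linarith
    have h' : (1 - inner ℝ z y1)⁻¹ • y1 = (1 - inner ℝ z y2)⁻¹ • y2 := h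
    have hi := congrArg (fun w => inner ℝ z w) h'
    simp only [inner_smul_right] at hi
    have ht : inner ℝ z y1 = inner ℝ z y2 := by
      field_simp at hi
      linarith
    rw [ht] at h'
    exact smul_right_injective _ (inv_ne_zero hp2.ne') h'
  have hdet : ∀ y ∈ T, |(f' y).det| = (1 - inner ℝ z y)⁻¹ ^ (m + 1) := by
    intro y hy
    have hpos : 0 < 1 - inner ℝ z y := by
      have := hlt y hy
      linarith
    have ha : (1 - inner ℝ z y)⁻¹ ≠ 0 := inv_ne_zero hpos.ne'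
    have e : ((f' y : EuclideanSpace ℝ (Fin m) →L[ℝ] EuclideanSpace ℝ (Fin m)) :
          EuclideanSpace ℝ (Fin m) →ₗ[ℝ] EuclideanSpace ℝ (Fin m))
        = (1 - inner ℝ z y)⁻¹ • LinearMap.transvection
            ((1 - inner ℝ z y)⁻¹ • ((innerSL ℝ z : EuclideanSpace ℝ (Fin m) →L[ℝ] ℝ) :
              EuclideanSpace ℝ (Fin m) →ₗ[ℝ] ℝ)) y := by
      refine LinearMap.ext fun x => ?_
      simp only [f', ContinuousLinearMap.coe_coe, add_apply,
        smul_apply, ContinuousLinearMap.id_apply,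
        ContinuousLinearMap.smulRight_apply, neg_apply, innerSL_apply_apply,
        LinearMap.smul_apply, LinearMap.transvection.apply, smul_eq_mul, smul_add, smul_smul]
      congr 2
      field_simp
    show |LinearMap.det ((f' y : EuclideanSpace ℝ (Fin m) →L[ℝ] EuclideanSpace ℝ (Fin m)) :
          EuclideanSpace ℝ (Fin m) →ₗ[ℝ] EuclideanSpace ℝ (Fin m))| = _
    rw [e, LinearMap.det_smul, LinearMap.transvection.det, finrank_euclideanSpace_fin]
    have e2 : 1 + ((1 - inner ℝ z y)⁻¹ • ((innerSL ℝ z : EuclideanSpace ℝ (Fin m) →L[ℝ] ℝ) :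
        EuclideanSpace ℝ (Fin m) →ₗ[ℝ] ℝ)) y = (1 - inner ℝ z y)⁻¹ := by
      simp only [LinearMap.smul_apply, ContinuousLinearMap.coe_coe, innerSL_apply_apply,
        smul_eq_mul]
      field_simp
      ring
    rw [e2, ← pow_succ, abs_of_pos (pow_pos (inv_pos.2 hpos) _)]
  rw [← lintegral_abs_det_fderiv_eq_addHaar_image volume hT hder hinj]
  exact setLIntegral_congr_fun hT (fun y hy => by rw [hdet y hy])

end Vale.Agent.Lib.P248.H79Y
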